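import Mathlib

/-!
# P219, part B: real-variable algebra for all curvatures `κ = -kap ≤ 0`

`q = 4 sinh²(k r / 2) / k²` (`= r²` if `k = 0`), `kap = k²`, `g_s = √(1 - kap s² / 4)`,
`w = 2 s g_s / (s² + q)`, `N = 2 / (s² + q)`.
-/

namespace Vale.Agent.P219.SB.Alg

open Real MeasureTheory Set

/-- `g_s` -/
noncomputable def gs (kap s : ℝ) : ℝ := √(1 - kap * s ^ 2 / 4)

/-- the bubble as function of `q` -/
noncomputable def bub (kap s q : ℝ) : ℝ := 2 * s * gs kap s / (s ^ 2 + q)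

/-- the zeroth component of the map to the sphere, as function of `q` -/
noncomputable def xi0 (kap s q : ℝ) : ℝ := (s ^ 2 - q + kap * s ^ 2 * q / 2) / (s ^ 2 + q)

theorem gs_sq {kap s : ℝ} (h : kap * s ^ 2 ≤ 4) : gs kap s ^ 2 = 1 - kap * s ^ 2 / 4 := by
  unfold gs
  rw [Real.sq_sqrt]; linarith

theorem gs_pos {kap s : ℝ} (h : kap * s ^ 2 < 4) : 0 < gs kap s := by
  unfold gs
  apply Real.sqrt_pos.mpr; linarith

theorem gs_nonneg (kap s : ℝ) : 0 ≤ gs kap s := Real.sqrt_nonneg _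

theorem gs_le_one {kap s : ℝ} (hk : 0 ≤ kap) : gs kap s ≤ 1 := by
  unfold gs
  have h : 1 - kap * s ^ 2 / 4 ≤ 1 := by
    nlinarith [sq_nonneg s, mul_nonneg hk (sq_nonneg s)]
  calc √(1 - kap * s ^ 2 / 4) ≤ √1 := Real.sqrt_le_sqrt h
    _ = 1 := Real.sqrt_one

theorem gs_anti {kap s s1 : ℝ} (hk : 0 ≤ kap) (hs : 0 ≤ s) (h : s ≤ s1) :
    gs kap s1 ≤ gs kap s := by
  unfold gs
  apply Real.sqrt_le_sqrt
  have : s ^ 2 ≤ s1 ^ 2 := by gcongr
  nlinarith [mul_le_mul_of_nonneg_left this hk]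

theorem den_pos {s q : ℝ} (hs : 0 < s) (hq : 0 ≤ q) : 0 < s ^ 2 + q := by positivity

theorem bub_pos {kap s q : ℝ} (hs : 0 < s) (h4 : kap * s ^ 2 < 4) (hq : 0 ≤ q) :
    0 < bub kap s q := by
  have h1 := gs_pos h4
  have h2 := den_pos hs hq
  unfold bub; positivity

theorem bub_nonneg {kap s q : ℝ} (hs : 0 ≤ s) (hq : 0 ≤ q) : 0 ≤ bub kap s q := by
  have h1 := gs_nonneg kap s
  unfold bub; positivity

theorem bub_eq (kap s q : ℝ) : bub kap s q = s * gs kap s * (2 / (s ^ 2 + q)) := by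
  unfold bub; ring

theorem bub_mul_den {kap s q : ℝ} (hs : 0 < s) (hq : 0 ≤ q) :
    bub kap s q * (s ^ 2 + q) = 2 * s * gs kap s := by
  unfold bub
  have := den_pos hs hq
  field_simp

/-- pointwise identity of the zero order terms, `N = 2 / (s² + q)` -/
theorem zero_order {kap s q : ℝ} (hs : 0 < s) (h4 : kap * s ^ 2 ≤ 4) (hq : 0 ≤ q) :
    -kap - bub kap s q ^ 2 - (2 / (s ^ 2 + q)) ^ 2 * (q + kap * q ^ 2 / 4)
      + 2 * (2 / (s ^ 2 + q)) * (1 + kap * q / 2) = 0 := by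
  have h := den_pos hs hq
  have hg := gs_sq h4
  have hb : bub kap s q ^ 2 = s ^ 2 * (1 - kap * s ^ 2 / 4) * (2 / (s ^ 2 + q)) ^ 2 := by
    rw [bub_eq, mul_pow, mul_pow, hg]
  rw [hb]
  field_simp
  ring

/-- complete square: the zero order term of the defect -/
theorem zero_order_sq {kap s q H m n : ℝ} (hs : 0 < s) (h4 : kap * s ^ 2 ≤ 4) (hq : 0 ≤ q) :
    (H ^ 2 / m ^ 2 - kap) - bub kap s q ^ 2
      - (2 / (s ^ 2 + q)) ^ 2 * ((q + kap * q ^ 2 / 4) - n ^ 2)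
      - 2 * (H / m) * (2 / (s ^ 2 + q)) * n
      + 2 * (2 / (s ^ 2 + q)) * (1 + kap * q / 2) = (H / m - 2 * n / (s ^ 2 + q)) ^ 2 := by
  have h := zero_order hs h4 hq
  have e : 2 * n / (s ^ 2 + q) = (2 / (s ^ 2 + q)) * n := by ring
  have e2 : (H / m) ^ 2 = H ^ 2 / m ^ 2 := by rw [div_pow]
  rw [e, ← e2]
  linear_combination h

/-- `ξ₀² + w² |DF|² = 1` -/
theorem xi_sq {kap s q : ℝ} (hs : 0 < s) (h4 : kap * s ^ 2 ≤ 4) (hq : 0 ≤ q) :
    xi0 kap s q ^ 2 + bub kap s q ^ 2 * (q + kap * q ^ 2 / 4) = 1 := by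
  have h := den_pos hs hq
  have hg := gs_sq h4
  have hb : bub kap s q ^ 2 = s ^ 2 * (1 - kap * s ^ 2 / 4) * (2 / (s ^ 2 + q)) ^ 2 := by
    rw [bub_eq, mul_pow, mul_pow, hg]
  rw [hb]
  unfold xi0
  field_simp
  ring

theorem abs_xi0_le_one {kap s q : ℝ} (hk : 0 ≤ kap) (hs : 0 < s) (h4 : kap * s ^ 2 ≤ 4)
    (hq : 0 ≤ q) : |xi0 kap s q| ≤ 1 := by
  have h := xi_sq hs h4 hq
  rw [← sq_le_one_iff_abs_le_one]
  have : 0 ≤ bub kap s q ^ 2 * (q + kap * q ^ 2 / 4) := by positivity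
  linarith

/-- alternative form of `ξ₀` -/
theorem xi0_eq {kap s q : ℝ} (hs : 0 < s) (hq : 0 ≤ q) :
    xi0 kap s q = (1 + kap * q / 2) - (2 / (s ^ 2 + q)) * (q + kap * q ^ 2 / 4) := by
  have h := den_pos hs hq
  unfold xi0
  field_simp
  ring

/-- derivative of the bubble in `q` : `-w/(s²+q)` -/
theorem hasDerivAt_bub_q {kap s q : ℝ} (hs : 0 < s) (hq : 0 ≤ q) :
    HasDerivAt (bub kap s) (-(bub kap s q / (s ^ 2 + q))) q := by
  have h := den_pos hs hq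
  unfold bub
  have h1 : HasDerivAt (fun x : ℝ => s ^ 2 + x) 1 q := by
    simpa using (hasDerivAt_id q).const_add (s ^ 2)
  have h2 := (h1.inv h.ne').const_mul (2 * s * gs kap s)
  refine h2.congr_deriv ?_
  field_simp

/-- derivative of `ξ₀` in `q`: `- w²/2 ` -/
theorem hasDerivAt_xi0_q {kap s q : ℝ} (hs : 0 < s) (h4 : kap * s ^ 2 ≤ 4) (hq : 0 ≤ q) :
    HasDerivAt (xi0 kap s) (-(bub kap s q ^ 2 / 2)) q := by
  have h := den_pos hs hq
  have hg := gs_sq h4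
  have hb : bub kap s q ^ 2 = s ^ 2 * (1 - kap * s ^ 2 / 4) * (2 / (s ^ 2 + q)) ^ 2 := by
    rw [bub_eq, mul_pow, mul_pow, hg]
  rw [hb]
  have h1 : HasDerivAt (fun x : ℝ => s ^ 2 + x) 1 q := by
    simpa using (hasDerivAt_id q).const_add (s ^ 2)
  have h2 : HasDerivAt (fun x : ℝ => s ^ 2 - x + kap * s ^ 2 * x / 2)
      (-1 + kap * s ^ 2 / 2) q := by
    have ha : HasDerivAt (fun x : ℝ => s ^ 2 - x) (-1) q := by
      simpa using (hasDerivAt_id q).const_sub (s ^ 2)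
    have hb : HasDerivAt (fun x : ℝ => kap * s ^ 2 * x / 2) (kap * s ^ 2 / 2) q := by
      simpa using ((hasDerivAt_id q).const_mul (kap * s ^ 2)).div_const 2
    exact ha.add hb
  have h3 := h2.div h1 h.ne'
  refine h3.congr_deriv ?_
  field_simp
  ring

/-- derivative of `g_s` -/
theorem hasDerivAt_gs {kap s : ℝ} (h4 : kap * s ^ 2 < 4) :
    HasDerivAt (gs kap) (-(kap * s / 4) / gs kap s) s := by
  have hp : 0 < 1 - kap * s ^ 2 / 4 := by linarith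
  have h1 : HasDerivAt (fun x : ℝ => 1 - kap * x ^ 2 / 4) (-(kap * s / 2)) s := by
    have := (((hasDerivAt_pow 2 s).const_mul kap).div_const 4).const_sub 1
    refine this.congr_deriv ?_
    simp; ring
  have h2 := h1.sqrt hp.ne'
  refine h2.congr_deriv ?_
  unfold gs
  have : 0 < √(1 - kap * s ^ 2 / 4) := Real.sqrt_pos.mpr hp
  field_simp
  ring

/-- derivative of the bubble in the scale: `∂_s w = -ξ₀ w / (s g²)` -/
theorem hasDerivAt_bub_s {kap s q : ℝ} (hs : 0 < s) (h4 : kap * s ^ 2 < 4) (hq : 0 ≤ q) :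
    HasDerivAt (fun s => bub kap s q)
      (-(xi0 kap s q * bub kap s q / (s * gs kap s ^ 2))) s := by
  have h := den_pos hs hq
  have hg := gs_sq h4.le
  have hgp := gs_pos h4
  have h1 : HasDerivAt (fun x : ℝ => 2 * x) 2 s := by
    simpa using (hasDerivAt_id s).const_mul 2
  have h2 := h1.mul (hasDerivAt_gs h4)
  have h3 : HasDerivAt (fun x : ℝ => x ^ 2 + q) (2 * s) s := by
    have := (hasDerivAt_pow 2 s).add_const q
    refine this.congr_deriv ?_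
    simp
  have h5 := h2.div h3 h.ne'
  have hval : ((fun x : ℝ => 2 * x) * gs kap) s = 2 * s * gs kap s := rfl
  rw [hval] at h5
  unfold bub
  refine h5.congr_deriv ?_
  unfold xi0
  have hgne := hgp.ne'
  have key : kap * s ^ 2 = 4 * (1 - gs kap s ^ 2) := by linarith
  set G := gs kap s
  have hne := h.ne'
  field_simp
  linear_combination 2 * (q - s ^ 2) * key

/-- exact defect identity at a point.  `Guu = gam(u,u)`, `GuF = gam(u,F)`, `GFF = gam(F,F)`,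
`Ggg = w^(m-2) gam(g,g)` for `u = g w^((m-2)/2)`, `Gψ = gam(u² β, F)`, `β = (4/m)/(s²+q)`. -/
theorem defect_pointwise {kap s q H m n u Guu GuF GFF Ggg Gψ : ℝ} (hs : 0 < s)
    (h4 : kap * s ^ 2 ≤ 4) (hq : 0 ≤ q) (hm : 2 < m)
    (hFF : GFF = (q + kap * q ^ 2 / 4) - n ^ 2)
    (hgg : Ggg = Guu + (m - 2) * (2 / (s ^ 2 + q)) * u * GuF
      + ((m - 2) / 2) ^ 2 * (2 / (s ^ 2 + q)) ^ 2 * u ^ 2 * GFF)
    (hψ : Gψ = 2 * u * ((4 / m) / (s ^ 2 + q)) * GuF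
      - (2 / m) * (2 / (s ^ 2 + q)) ^ 2 * u ^ 2 * GFF) :
    4 / (m * (m - 2)) * Guu + (H ^ 2 / m ^ 2 - kap) * u ^ 2 - u ^ 2 * bub kap s q ^ 2
      = 4 / (m * (m - 2)) * Ggg + u ^ 2 * (H / m - 2 * n / (s ^ 2 + q)) ^ 2
        + (H * (u ^ 2 * ((4 / m) / (s ^ 2 + q))) * n
          - m * (u ^ 2 * ((4 / m) / (s ^ 2 + q))) * (1 + kap * q / 2) - Gψ) := by
  have h0 := zero_order_sq (H := H) (m := m) (n := n) hs h4 hq
  have hm0 : m ≠ 0 := by linarith
  have hm2 : m - 2 ≠ 0 := by linarith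
  have e1 : (4 / m) / (s ^ 2 + q) = (2 / m) * (2 / (s ^ 2 + q)) := by ring
  rw [e1] at hψ ⊢
  set N := 2 / (s ^ 2 + q)
  rw [← h0, hψ, hgg, hFF]
  field_simp
  ring

/-- exact pointwise form of the bubble monotonicity.  `W = w^m`, `GΦF = gam(Φ,F)`,
`GFF = gam(F,F)`; the bracket on the left is the integrand of `D_c[Φ w^m]`. -/
theorem mono_pointwise {kap s q H m n Φ W GΦF GFF : ℝ} (hs : 0 < s) (hq : 0 ≤ q)
    (hFF : GFF = (q + kap * q ^ 2 / 4) - n ^ 2) :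
    H * (Φ * W) * n - m * (Φ * W) * (1 + kap * q / 2)
        - (W * GΦF - Φ * (m * W * (2 / (s ^ 2 + q)) * GFF))
      = -(m * xi0 kap s q * (Φ * W)) + Φ * W * (H * n - 2 * m * n ^ 2 / (s ^ 2 + q))
        - W * GΦF := by
  have h := xi0_eq (kap := kap) hs hq
  have e : 2 * m * n ^ 2 / (s ^ 2 + q) = m * (2 / (s ^ 2 + q)) * n ^ 2 := by ring
  rw [h, hFF, e]
  ring

/-- completing the square in the monotonicity -/
theorem square_bound {s q H m n : ℝ} (hs : 0 < s) (hq : 0 ≤ q) (hm : 0 < m) :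
    H * n - 2 * m * n ^ 2 / (s ^ 2 + q) ≤ H ^ 2 * (s ^ 2 + q) / (8 * m) := by
  have h := den_pos hs hq
  rw [← sub_nonneg]
  have : H ^ 2 * (s ^ 2 + q) / (8 * m) - (H * n - 2 * m * n ^ 2 / (s ^ 2 + q))
      = 2 * m / (s ^ 2 + q) * (n - H * (s ^ 2 + q) / (4 * m)) ^ 2 := by
    field_simp
    ring
  rw [this]
  positivity

/-- derivative of `w^m` in `q` -/
theorem hasDerivAt_bub_pow_q (m : ℕ) {kap s q : ℝ} (hs : 0 < s) (hq : 0 ≤ q) :
    HasDerivAt (fun q => bub kap s q ^ m) (-(m * bub kap s q ^ m / (s ^ 2 + q))) q := by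
  have h := (hasDerivAt_bub_q (kap := kap) hs hq).pow m
  refine h.congr_deriv ?_
  rcases m with _ | m
  · simp
  · simp only [Nat.add_sub_cancel]
    ring

/-- derivative of `w^m` in `s` -/
theorem hasDerivAt_bub_pow_s (m : ℕ) {kap s q : ℝ} (hs : 0 < s) (h4 : kap * s ^ 2 < 4)
    (hq : 0 ≤ q) :
    HasDerivAt (fun s => bub kap s q ^ m)
      (-(m * xi0 kap s q * bub kap s q ^ m / (s * gs kap s ^ 2))) s := by
  have h := (hasDerivAt_bub_s hs h4 hq).pow m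
  refine h.congr_deriv ?_
  rcases m with _ | m
  · simp
  · simp only [Nat.add_sub_cancel]
    ring

theorem bub_le {kap s q : ℝ} (hk : 0 ≤ kap) (hs : 0 < s) (hq : 0 ≤ q) :
    bub kap s q ≤ 2 * s / (s ^ 2 + q) := by
  unfold bub
  have h := den_pos hs hq
  have hg := gs_le_one (s := s) hk
  have hnum : 2 * s * gs kap s ≤ 2 * s := by
    nlinarith [mul_le_mul_of_nonneg_left hg (show 0 ≤ 2 * s by positivity)]
  exact div_le_div_of_nonneg_right hnum h.le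

theorem bub_le_two_div {kap s q : ℝ} (hk : 0 ≤ kap) (hs : 0 < s) (hq : 0 ≤ q) :
    bub kap s q ≤ 2 / s := by
  refine (bub_le hk hs hq).trans ?_
  have h := den_pos hs hq
  rw [div_le_div_iff₀ h hs]
  nlinarith [sq_nonneg s]

/-- comparison of scales: `w_{s1} ≤ L w_s` for `s ≤ s1 ≤ L s` -/
theorem bub_scale_le {kap s s1 q L : ℝ} (hk : 0 ≤ kap) (hs : 0 < s) (h1 : s ≤ s1)
    (h2 : s1 ≤ L * s) (hq : 0 ≤ q) : bub kap s1 q ≤ L * bub kap s q := by
  have hd := den_pos hs hq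
  have hs1 : 0 < s1 := hs.trans_le h1
  have hd1 := den_pos hs1 hq
  have hg := gs_anti hk hs.le h1
  have hgn := gs_nonneg kap s1
  have hgn' := gs_nonneg kap s
  unfold bub
  rw [← mul_div_assoc]
  have hsq : s ^ 2 ≤ s1 ^ 2 := by gcongr
  have hnum : 2 * s1 * gs kap s1 ≤ L * (2 * s * gs kap s) := by
    have hLs : 0 ≤ L * s := hs1.le.trans h2
    calc 2 * s1 * gs kap s1 ≤ 2 * (L * s) * gs kap s := by gcongr
      _ = L * (2 * s * gs kap s) := by ring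
  have hnn : 0 ≤ 2 * s1 * gs kap s1 := by positivity
  calc 2 * s1 * gs kap s1 / (s1 ^ 2 + q) ≤ 2 * s1 * gs kap s1 / (s ^ 2 + q) := by gcongr
    _ ≤ _ := by gcongr

/-- `w_{s1}^m ≤ 2 L^(m-1) w_s^(m-1) / s` for `s ≤ s1 ≤ L s` -/
theorem bub_pow_scale_le (m : ℕ) (hm : 1 ≤ m) {kap s s1 q L : ℝ} (hk : 0 ≤ kap) (hs : 0 < s)
    (h1 : s ≤ s1) (h2 : s1 ≤ L * s) (hq : 0 ≤ q) :
    bub kap s1 q ^ m ≤ 2 * L ^ (m - 1) * bub kap s q ^ (m - 1) / s := by
  obtain ⟨j, rfl⟩ : ∃ j, m = j + 1 := ⟨m - 1, by omega⟩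
  simp only [Nat.add_sub_cancel]
  have hs1 : 0 < s1 := hs.trans_le h1
  have hL : 0 < L := by
    by_contra hL
    push Not at hL
    have : L * s ≤ 0 := mul_nonpos_of_nonpos_of_nonneg hL hs.le
    linarith
  have hb1 := bub_nonneg (kap := kap) hs1.le hq
  have hb := bub_nonneg (kap := kap) hs.le hq
  have e1 := bub_scale_le hk hs h1 h2 hq
  have e2 : bub kap s1 q ≤ 2 / s := by
    refine (bub_le_two_div hk hs1 hq).trans ?_
    gcongr
  calc bub kap s1 q ^ (j + 1) = bub kap s1 q ^ j * bub kap s1 q := pow_succ _ _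
    _ ≤ (L * bub kap s q) ^ j * (2 / s) := by gcongr
    _ = _ := by rw [mul_pow]; ring

/-- comparison of centres: if `√q' ≤ √q + D` and `(1+1/ε) D² ≤ ε s²` then
`w_{s}(q) ≤ (1+ε) w_s(q')` -/
theorem bub_center_le {kap s q q' D ε : ℝ} (hs : 0 < s) (hq : 0 ≤ q) (hq' : 0 ≤ q')
    (hε : 0 < ε) (h : √q' ≤ √q + D) (hD2 : (1 + 1 / ε) * D ^ 2 ≤ ε * s ^ 2) :
    bub kap s q ≤ (1 + ε) * bub kap s q' := by
  have hd := den_pos hs hq
  have hd' := den_pos hs hq'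
  have hg := gs_nonneg kap s
  have h1 : q' ≤ (√q + D) ^ 2 := by
    calc q' = √q' ^ 2 := (Real.sq_sqrt hq').symm
      _ ≤ _ := by
        have := Real.sqrt_nonneg q'
        gcongr
  have h2 : (√q + D) ^ 2 ≤ (1 + ε) * q + (1 + 1 / ε) * D ^ 2 := by
    have e : (1 + ε) * q + (1 + 1 / ε) * D ^ 2 - (√q + D) ^ 2
        = (ε * √q - D) ^ 2 / ε := by
      have : q = √q ^ 2 := (Real.sq_sqrt hq).symm
      rw [this]
      simp only [Real.sqrt_sq (Real.sqrt_nonneg q)]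
      field_simp
      ring
    have : 0 ≤ (ε * √q - D) ^ 2 / ε := by positivity
    linarith
  have h3 : s ^ 2 + q' ≤ (1 + ε) * (s ^ 2 + q) := by nlinarith
  unfold bub
  rw [← mul_div_assoc, div_le_div_iff₀ hd hd']
  have hnn : 0 ≤ 2 * s * gs kap s := by positivity
  nlinarith [mul_le_mul_of_nonneg_left h3 hnn]

end Vale.Agent.P219.SB.Alg
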