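import Mathlib

open MeasureTheory ProbabilityTheory Set
open scoped ENNReal NNReal Real

namespace Vale.Agent.P219.MP

noncomputable section

variable {E : Type*} [NormedAddCommGroup E] [InnerProductSpace ℝ E] [FiniteDimensional ℝ E]
  [MeasurableSpace E] [BorelSpace E]

/-- first absolute moment of the standard Gaussian on the line -/
lemma absmoment_one : ∫⁻ x, ‖x‖ₑ ∂(gaussianReal 0 1) = ENNReal.ofReal (√(2 / π)) := by
  have h1 : ∫ x : ℝ, |x| * Real.exp (-x ^ 2 / 2) = 2 := by
    have e1 : (fun x : ℝ => |x| * Real.exp (-x ^ 2 / 2))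
        = fun x : ℝ => (fun y : ℝ => y * Real.exp (-y ^ 2 / 2)) |x| := by
      funext x; simp [sq_abs]
    rw [e1, integral_comp_abs (f := fun y : ℝ => y * Real.exp (-y ^ 2 / 2))]
    have e2 : ∫ x in Ioi (0:ℝ), x * Real.exp (-x ^ 2 / 2) = 1 := by
      have := integral_rpow_mul_exp_neg_mul_rpow (p := 2) (q := 1) (b := 1/2) (by norm_num)
        (by norm_num) (by norm_num)
      have e3 : (∫ x in Ioi (0:ℝ), x ^ (1:ℝ) * Real.exp (-(1/2) * x ^ (2:ℝ)))
          = ∫ x in Ioi (0:ℝ), x * Real.exp (-x ^ 2 / 2) := by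
        refine setIntegral_congr_fun measurableSet_Ioi ?_
        intro x hx
        simp only [Real.rpow_one]
        congr 2
        rw [show (2:ℝ) = ((2:ℕ):ℝ) by norm_num, Real.rpow_natCast]
        norm_num; ring
      rw [e3] at this
      rw [this]
      norm_num
    rw [e2]; norm_num
  have h2 : ∫ x, |x| ∂(gaussianReal 0 1) = √(2 / π) := by
    rw [integral_gaussianReal_eq_integral_smul (by norm_num)]
    simp only [gaussianPDFReal, sub_zero, NNReal.coe_one, mul_one, smul_eq_mul]
    have : (fun x : ℝ => (√(2 * π))⁻¹ * Real.exp (-x ^ 2 / 2) * |x|)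
        = fun x : ℝ => (√(2 * π))⁻¹ * (|x| * Real.exp (-x ^ 2 / 2)) := by
      funext x; ring
    rw [this, integral_const_mul, h1]
    have hpi : 0 < π := Real.pi_pos
    have h2p : 0 < √(2 * π) := Real.sqrt_pos.2 (by positivity)
    rw [inv_mul_eq_div, div_eq_iff h2p.ne', ← Real.sqrt_mul (by positivity)]
    rw [show (2 / π * (2 * π)) = 2 ^ 2 by field_simp]
    rw [Real.sqrt_sq (by norm_num)]
  rw [← h2, ofReal_integral_eq_lintegral_ofReal]
  · refine lintegral_congr fun x => ?_
    rw [← Real.norm_eq_abs, ofReal_norm]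
  · exact (IsGaussian.integrable_id (μ := gaussianReal 0 1)).abs
  · exact Filter.Eventually.of_forall fun x => abs_nonneg x

/-- first absolute moment of a linear functional -/
lemma absmoment (L : StrongDual ℝ E) :
    ∫⁻ x, ‖L x‖ₑ ∂(stdGaussian E) = ENNReal.ofReal (√(2 / π)) * ‖L‖ₑ := by
  rcases eq_or_ne L 0 with rfl | hL
  · simp only [zero_apply, enorm_zero, lintegral_zero]
    have h0 : ‖(0 : StrongDual ℝ E)‖ₑ = 0 := by
      rw [← ofReal_norm]; simp
    rw [h0, mul_zero]
  have hn : (0:ℝ) < ‖L‖ := norm_pos_iff.2 hL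
  set L' : StrongDual ℝ E := ‖L‖⁻¹ • L with hL'
  have hn' : ‖L'‖ = 1 := by
    rw [hL', norm_smul, norm_inv, norm_norm, inv_mul_cancel₀ hn.ne']
  have hmap : (stdGaussian E).map L' = gaussianReal 0 1 := by
    rw [IsGaussian.map_eq_gaussianReal L', variance_dual_stdGaussian, hn',
      integral_strongDual_stdGaussian]
    norm_num
  have hLL : L = ‖L‖ • L' := by
    rw [hL', smul_smul, mul_inv_cancel₀ hn.ne', one_smul]
  have h1 : ∫⁻ x, ‖L' x‖ₑ ∂(stdGaussian E) = ENNReal.ofReal (√(2 / π)) := by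
    rw [← absmoment_one, ← hmap, lintegral_map (by fun_prop) (by fun_prop)]
  have h2 : ∀ x, ‖L x‖ₑ = ‖L‖ₑ * ‖L' x‖ₑ := by
    intro x
    conv_lhs => rw [hLL]
    rw [smul_apply, enorm_smul, enorm_norm]
  simp_rw [h2]
  rw [lintegral_const_mul _ (by fun_prop), h1, mul_comm]

lemma rot_inv (θ : ℝ) :
    ((stdGaussian E).prod (stdGaussian E)).map (ContinuousLinearMap.rotation θ)
      = (stdGaussian E).prod (stdGaussian E) :=
  IsGaussian.map_rotation_eq_self_of_forall_strongDual_eq_zero
    (fun L => integral_strongDual_stdGaussian L) θ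

omit [FiniteDimensional ℝ E] [MeasurableSpace E] [BorelSpace E] in
/-- pointwise bound along the rotation path -/
lemma ptwise {h : E → ℝ} (hh : ContDiff ℝ 1 h) (p : E × E) :
    ‖h p.1 - h p.2‖ₑ ≤ ∫⁻ θ in Ioc 0 (π / 2),
      ‖fderiv ℝ h (ContinuousLinearMap.rotation θ p).1
        (ContinuousLinearMap.rotation θ p).2‖ₑ := by
  have hc : Continuous (fderiv ℝ h) := hh.continuous_fderiv (by norm_num)
  have hd : ∀ θ : ℝ, HasDerivAt (fun θ : ℝ => h (Real.cos θ • p.1 + Real.sin θ • p.2))
      (fderiv ℝ h (Real.cos θ • p.1 + Real.sin θ • p.2)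
        (-Real.sin θ • p.1 + Real.cos θ • p.2)) θ := by
    intro θ
    have h1 : HasDerivAt (fun θ : ℝ => Real.cos θ • p.1 + Real.sin θ • p.2)
        (-Real.sin θ • p.1 + Real.cos θ • p.2) θ :=
      ((Real.hasDerivAt_cos θ).smul_const p.1).add ((Real.hasDerivAt_sin θ).smul_const p.2)
    exact ((hh.differentiable (by norm_num)) _).hasFDerivAt.comp_hasDerivAt θ h1
  have hcont : Continuous (fun θ : ℝ => fderiv ℝ h (Real.cos θ • p.1 + Real.sin θ • p.2)
        (-Real.sin θ • p.1 + Real.cos θ • p.2)) := by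
    have : Continuous (fun θ : ℝ => Real.cos θ • p.1 + Real.sin θ • p.2) := by fun_prop
    exact (hc.comp this).clm_apply (by fun_prop)
  have hF := intervalIntegral.integral_eq_sub_of_hasDerivAt (a := 0) (b := π / 2)
    (fun θ _ => hd θ) (hcont.intervalIntegrable _ _)
  simp only [Real.cos_pi_div_two, Real.sin_pi_div_two, zero_smul, one_smul, zero_add,
    Real.cos_zero, Real.sin_zero, add_zero] at hF
  have h0 : (0:ℝ) ≤ π / 2 := by positivity
  rw [intervalIntegral.integral_of_le h0] at hF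
  rw [← enorm_neg, neg_sub, ← hF]
  exact enorm_integral_le_lintegral_enorm _

/-- **Maurey-Pisier**: for the standard Gaussian measure. -/
theorem maurey_pisier_std {h : E → ℝ} (hh : ContDiff ℝ 1 h) :
    ∫⁻ p, ‖h p.1 - h p.2‖ₑ ∂((stdGaussian E).prod (stdGaussian E))
      ≤ ENNReal.ofReal (√(π / 2)) * ∫⁻ x, ‖fderiv ℝ h x‖ₑ ∂(stdGaussian E) := by
  have hc : Continuous (fderiv ℝ h) := hh.continuous_fderiv (by norm_num)
  have hrot : Continuous fun q : ℝ × (E × E) => ContinuousLinearMap.rotation q.1 q.2 := by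
    have : (fun q : ℝ × (E × E) => ContinuousLinearMap.rotation q.1 q.2)
        = fun q : ℝ × (E × E) => (Real.cos q.1 • q.2.1 + Real.sin q.1 • q.2.2,
          -Real.sin q.1 • q.2.1 + Real.cos q.1 • q.2.2) := rfl
    rw [this]; fun_prop
  have hjoint : Continuous fun q : ℝ × (E × E) =>
      fderiv ℝ h (ContinuousLinearMap.rotation q.1 q.2).1
        (ContinuousLinearMap.rotation q.1 q.2).2 :=
    (hc.comp (continuous_fst.comp hrot)).clm_apply (continuous_snd.comp hrot)
  set F : E × E → ℝ≥0∞ := fun q => ‖fderiv ℝ h q.1 q.2‖ₑ with hF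
  have hFm : Measurable F := by
    have : Continuous fun q : E × E => fderiv ℝ h q.1 q.2 :=
      (hc.comp continuous_fst).clm_apply continuous_snd
    exact this.enorm.measurable
  have hint : ∫⁻ q, F q ∂((stdGaussian E).prod (stdGaussian E))
      = ENNReal.ofReal (√(2 / π)) * ∫⁻ x, ‖fderiv ℝ h x‖ₑ ∂(stdGaussian E) := by
    rw [lintegral_prod _ hFm.aemeasurable]
    have : ∀ x : E, ∫⁻ y, F (x, y) ∂(stdGaussian E)
        = ENNReal.ofReal (√(2 / π)) * ‖fderiv ℝ h x‖ₑ := fun x => absmoment (fderiv ℝ h x)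
    simp_rw [this]
    rw [lintegral_const_mul _ hc.enorm.measurable]
  calc ∫⁻ p, ‖h p.1 - h p.2‖ₑ ∂((stdGaussian E).prod (stdGaussian E))
      ≤ ∫⁻ p, (∫⁻ θ in Ioc 0 (π / 2), F (ContinuousLinearMap.rotation θ p))
          ∂((stdGaussian E).prod (stdGaussian E)) := lintegral_mono fun p => ptwise hh p
    _ = ∫⁻ θ in Ioc 0 (π / 2), ∫⁻ p, F (ContinuousLinearMap.rotation θ p)
          ∂((stdGaussian E).prod (stdGaussian E)) := by
        refine lintegral_lintegral_swap ?_
        exact (hjoint.enorm.measurable.comp measurable_swap).aemeasurable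
    _ = ∫⁻ θ in Ioc 0 (π / 2), ENNReal.ofReal (√(2 / π))
          * ∫⁻ x, ‖fderiv ℝ h x‖ₑ ∂(stdGaussian E) := by
        refine lintegral_congr fun θ => ?_
        rw [← hint]
        conv_rhs => rw [← rot_inv (E := E) θ]
        rw [lintegral_map hFm (by fun_prop)]
    _ = ENNReal.ofReal (√(π / 2)) * ∫⁻ x, ‖fderiv ℝ h x‖ₑ ∂(stdGaussian E) := by
        rw [lintegral_const, Measure.restrict_apply MeasurableSet.univ, univ_inter,
          Real.volume_Ioc, sub_zero, mul_comm, ← mul_assoc,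
          ← ENNReal.ofReal_mul (by positivity)]
        congr 2
        have hpi : 0 < π := Real.pi_pos
        symm
        rw [Real.sqrt_eq_iff_mul_self_eq (by positivity) (by positivity)]
        have := Real.mul_self_sqrt (show (0:ℝ) ≤ 2 / π by positivity)
        have e : π / 2 * √(2 / π) * (π / 2 * √(2 / π)) = (π / 2) ^ 2 * (√(2 / π) * √(2 / π)) := by
          ring
        rw [e, this]; field_simp
          
end

end Vale.Agent.P219.MP
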