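import Vale.Agent.P219.TP.Moments
import Vale.Agent.P219.TP.Liou

/-! # P219, Gaussian Poincaré inequality of Maurey and Pisier in `L¹` (block L2, part a) -/

open MeasureTheory Set Metric
open scoped ENNReal ContDiff

namespace Vale.Agent.P219.TP

variable {n : ℕ}

/-- Density of the centred Gaussian with weight `exp (-t |v|²)`. -/
noncomputable def gd (t : ℝ) (v : E n) : ℝ :=
  (t / Real.pi) ^ ((n : ℝ) / 2) * Real.exp (-t * ‖v‖ ^ 2)

theorem gd_continuous (t : ℝ) : Continuous (gd (n := n) t) := by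
  unfold gd
  fun_prop

theorem gd_nonneg {t : ℝ} (ht : 0 < t) (v : E n) : 0 ≤ gd t v := by
  unfold gd
  have := Real.pi_pos
  positivity

theorem gd_pos {t : ℝ} (ht : 0 < t) (v : E n) : 0 < gd t v := by
  unfold gd
  have := Real.pi_pos
  positivity

theorem integral_gd {t : ℝ} (ht : 0 < t) : ∫ v : E n, gd t v = 1 := by
  unfold gd
  rw [integral_const_mul, GaussianFourier.integral_rexp_neg_mul_sq_norm ht]
  simp only [finrank_euclideanSpace, Fintype.card_fin]
  rw [← Real.mul_rpow (by have := Real.pi_pos; positivity) (by have := Real.pi_pos; positivity)]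
  have : t / Real.pi * (Real.pi / t) = 1 := by
    have := Real.pi_pos
    field_simp
  rw [this, Real.one_rpow]

theorem integrable_gd {t : ℝ} (ht : 0 < t) : Integrable (gd (n := n) t) := by
  by_contra h
  have h1 := integral_undef h
  rw [integral_gd ht] at h1
  exact one_ne_zero h1

/-- The centred Gaussian probability measure with weight `exp (-t |v|²)`. -/
noncomputable def gm (n : ℕ) (t : ℝ) : Measure (E n) :=
  volume.withDensity fun v => ENNReal.ofReal (gd t v)

theorem gd_meas (t : ℝ) : Measurable fun v : E n => ENNReal.ofReal (gd t v) :=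
  (gd_continuous t).measurable.ennreal_ofReal

theorem gm_prob {t : ℝ} (ht : 0 < t) : IsProbabilityMeasure (gm n t) := by
  constructor
  unfold gm
  rw [withDensity_apply _ MeasurableSet.univ, Measure.restrict_univ,
    ← ofReal_integral_eq_lintegral_ofReal (integrable_gd ht)
      (.of_forall fun v => gd_nonneg ht v), integral_gd ht, ENNReal.ofReal_one]

theorem lintegral_gm (t : ℝ) {F : E n → ℝ≥0∞} (hF : Measurable F) :
    ∫⁻ v, F v ∂(gm n t) = ∫⁻ v, ENNReal.ofReal (gd t v) * F v := by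
  unfold gm
  rw [lintegral_withDensity_eq_lintegral_mul _ (gd_meas t) hF]
  rfl

/-- Rotation of the product. -/
noncomputable def rotP (θ : ℝ) (z : E n × E n) : E n × E n :=
  (Real.cos θ • z.1 + Real.sin θ • z.2, -Real.sin θ • z.1 + Real.cos θ • z.2)

theorem shear_fst (a : ℝ) : MeasurePreserving (fun z : E n × E n => (z.1 + a • z.2, z.2))
    (volume.prod volume) (volume.prod volume) := by
  have h : MeasurePreserving (fun z : E n × E n => (z.1, z.2 + a • z.1))
      (volume.prod volume) (volume.prod volume) := by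
    refine MeasurePreserving.skew_product (MeasurePreserving.id volume)
      (g := fun x y => y + a • x) (by fun_prop) ?_
    refine .of_forall fun x => ?_
    exact (measurePreserving_add_right volume (a • x)).map_eq
  have h2 := (Measure.measurePreserving_swap (μ := (volume : Measure (E n)))
    (ν := (volume : Measure (E n)))).comp (h.comp Measure.measurePreserving_swap)
  exact h2

theorem shear_snd (a : ℝ) : MeasurePreserving (fun z : E n × E n => (z.1, z.2 + a • z.1))
    (volume.prod volume) (volume.prod volume) := by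
  refine MeasurePreserving.skew_product (MeasurePreserving.id volume)
    (g := fun x y => y + a • x) (by fun_prop) ?_
  refine .of_forall fun x => ?_
  exact (measurePreserving_add_right volume (a • x)).map_eq

theorem rotP_mp {θ : ℝ} (hc : Real.cos (θ / 2) ≠ 0) :
    MeasurePreserving (rotP (n := n) θ) (volume.prod volume) (volume.prod volume) := by
  set a : ℝ := Real.sin (θ / 2) / Real.cos (θ / 2) with ha
  have h := (shear_fst (n := n) a).comp ((shear_snd (n := n) (-Real.sin θ)).comp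
    (shear_fst (n := n) a))
  have e1 : Real.sin θ = 2 * Real.sin (θ / 2) * Real.cos (θ / 2) := by
    rw [← Real.sin_two_mul]; ring_nf
  have e2 : Real.cos θ = 2 * Real.cos (θ / 2) ^ 2 - 1 := by
    rw [← Real.cos_two_mul]; ring_nf
  have e3 := Real.sin_sq_add_cos_sq (θ / 2)
  have h1 : 1 - a * Real.sin θ = Real.cos θ := by
    rw [ha, e1, e2]
    field_simp
    nlinarith [e3]
  have h2 : a + a * (1 - a * Real.sin θ) = Real.sin θ := by
    rw [h1, ha, e1, e2]
    field_simp
    ring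
  convert h using 1
  funext z
  simp only [rotP, Function.comp]
  ext1
  · simp only
    have : z.1 + a • z.2 + a • (z.2 + -Real.sin θ • (z.1 + a • z.2)) =
      (1 - a * Real.sin θ) • z.1 + (a + a * (1 - a * Real.sin θ)) • z.2 := by
      module
    rw [this, h2, h1]
  · simp only
    have : z.2 + -Real.sin θ • (z.1 + a • z.2) =
      -Real.sin θ • z.1 + (1 - a * Real.sin θ) • z.2 := by
      module
    rw [this, h1]

theorem rotP_norm (θ : ℝ) (z : E n × E n) :
    ‖(rotP θ z).1‖ ^ 2 + ‖(rotP θ z).2‖ ^ 2 = ‖z.1‖ ^ 2 + ‖z.2‖ ^ 2 := by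
  unfold rotP
  simp only
  rw [norm_add_sq_real, norm_add_sq_real]
  simp only [norm_smul, inner_smul_left, inner_smul_right, norm_neg, Real.norm_eq_abs, mul_pow,
    sq_abs, conj_trivial]
  have := Real.sin_sq_add_cos_sq θ
  linear_combination (‖z.1‖ ^ 2 + ‖z.2‖ ^ 2) * this

theorem gd_rot (t θ : ℝ) (z : E n × E n) :
    gd t (rotP θ z).1 * gd t (rotP θ z).2 = gd t z.1 * gd t z.2 := by
  unfold gd
  have h := rotP_norm θ z
  have h1 : ∀ u v : E n, (t / Real.pi) ^ ((n : ℝ) / 2) * Real.exp (-t * ‖u‖ ^ 2) *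
      ((t / Real.pi) ^ ((n : ℝ) / 2) * Real.exp (-t * ‖v‖ ^ 2)) =
      ((t / Real.pi) ^ ((n : ℝ) / 2)) ^ 2 * Real.exp (-t * (‖u‖ ^ 2 + ‖v‖ ^ 2)) := by
    intro u v
    rw [mul_add, Real.exp_add]
    ring
  rw [h1, h1, h]

theorem gm_prod (t : ℝ) : (gm n t).prod (gm n t) =
    (volume.prod volume).withDensity
      fun z : E n × E n => ENNReal.ofReal (gd t z.1) * ENNReal.ofReal (gd t z.2) := by
  unfold gm
  exact prod_withDensity (gd_meas t) (gd_meas t)

theorem lintegral_rot {t : ℝ} (ht : 0 < t) {θ : ℝ} (hc : Real.cos (θ / 2) ≠ 0)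
    {F : E n × E n → ℝ≥0∞} (hF : Measurable F) :
    ∫⁻ z, F (rotP θ z) ∂((gm n t).prod (gm n t)) = ∫⁻ z, F z ∂((gm n t).prod (gm n t)) := by
  have hr : Continuous (rotP (n := n) θ) := by unfold rotP; fun_prop
  have hd : Measurable fun z : E n × E n =>
      ENNReal.ofReal (gd t z.1) * ENNReal.ofReal (gd t z.2) :=
    ((gd_meas t).comp measurable_fst).mul ((gd_meas t).comp measurable_snd)
  have hFr : Measurable fun z => F (rotP θ z) := hF.comp hr.measurable
  rw [gm_prod, lintegral_withDensity_eq_lintegral_mul _ hd hFr,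
    lintegral_withDensity_eq_lintegral_mul _ hd hF]
  have h := (rotP_mp (n := n) hc).lintegral_comp (f := fun z =>
    ENNReal.ofReal (gd t z.1) * ENNReal.ofReal (gd t z.2) * F z) (hd.mul hF)
  simp only [Pi.mul_apply]
  rw [← h]
  refine lintegral_congr fun z => ?_
  rw [← ENNReal.ofReal_mul (gd_nonneg ht _), ← ENNReal.ofReal_mul (gd_nonneg ht _), gd_rot]

theorem int_lin_one (m : ℕ) {e : E (m + 1)} (he : ‖e‖ = 1) :
    Integrable (fun x : E (m + 1) => |inner ℝ e x| * Real.exp (-‖x‖ ^ 2)) ∧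
    ∫ x : E (m + 1), |inner ℝ e x| * Real.exp (-‖x‖ ^ 2) = Real.pi ^ ((m : ℝ) / 2) := by
  have hpi := Real.pi_pos
  have h1 := gauss_moment m (k := 1) le_rfl he
  have he' : ‖-e‖ = 1 := by rw [norm_neg, he]
  have h2 := gauss_moment m (k := 1) le_rfl he'
  have hv : Real.pi ^ ((m : ℝ) / 2) * (Real.Gamma (((1 : ℕ) + 1 : ℝ) / 2) / 2) =
      Real.pi ^ ((m : ℝ) / 2) / 2 := by
    norm_num
    ring
  rw [hv] at h1 h2
  have hp : 0 < Real.pi ^ ((m : ℝ) / 2) / 2 := by positivity
  have i1 : Integrable (fun x : E (m + 1) => max 0 (inner ℝ e x) ^ 1 * Real.exp (-‖x‖ ^ 2)) := by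
    by_contra h
    rw [integral_undef h] at h1
    linarith
  have i2 : Integrable (fun x : E (m + 1) => max 0 (inner ℝ (-e) x) ^ 1 * Real.exp (-‖x‖ ^ 2)) := by
    by_contra h
    rw [integral_undef h] at h2
    linarith
  have e : (fun x : E (m + 1) => |inner ℝ e x| * Real.exp (-‖x‖ ^ 2)) =
      fun x => max 0 (inner ℝ e x) ^ 1 * Real.exp (-‖x‖ ^ 2) +
        max 0 (inner ℝ (-e) x) ^ 1 * Real.exp (-‖x‖ ^ 2) := by
    funext x
    rw [inner_neg_left, pow_one, pow_one, ← add_mul]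
    congr 1
    rcases le_total 0 (inner ℝ e x : ℝ) with h | h
    · rw [abs_of_nonneg h, max_eq_right h, max_eq_left (by linarith), add_zero]
    · rw [abs_of_nonpos h, max_eq_left h, max_eq_right (by linarith), zero_add]
  rw [e]
  refine ⟨i1.add i2, ?_⟩
  rw [integral_add i1 i2, h1, h2]
  ring

theorem int_lin (m : ℕ) {t : ℝ} (ht : 0 < t) {e : E (m + 1)} (he : ‖e‖ = 1) :
    Integrable (fun x : E (m + 1) => |inner ℝ e x| * gd t x) ∧
    ∫ x : E (m + 1), |inner ℝ e x| * gd t x = 1 / √(Real.pi * t) := by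
  have hpi := Real.pi_pos
  obtain ⟨i1, h1⟩ := int_lin_one m he
  have hst : 0 < √t := Real.sqrt_pos.2 ht
  have h2 := Measure.integral_comp_smul (volume : Measure (E (m + 1)))
    (fun x : E (m + 1) => |inner ℝ e x| * Real.exp (-‖x‖ ^ 2)) (√t)
  have i2 : Integrable (fun x : E (m + 1) => |inner ℝ e (√t • x)| * Real.exp (-‖√t • x‖ ^ 2)) :=
    (integrable_comp_smul_iff volume
      (fun x : E (m + 1) => |inner ℝ e x| * Real.exp (-‖x‖ ^ 2)) hst.ne').2 i1
  have e1 : (fun x : E (m + 1) => |inner ℝ e x| * gd t x) = fun x =>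
      ((t / Real.pi) ^ (((m + 1 : ℕ) : ℝ) / 2) / √t) *
        (|inner ℝ e (√t • x)| * Real.exp (-‖√t • x‖ ^ 2)) := by
    funext x
    rw [inner_smul_right, abs_mul, abs_of_pos hst, norm_smul, Real.norm_eq_abs, abs_of_pos hst,
      mul_pow, Real.sq_sqrt ht.le]
    unfold gd
    rw [show -t * ‖x‖ ^ 2 = -(t * ‖x‖ ^ 2) by ring]
    field_simp
  rw [e1]
  refine ⟨i2.const_mul _, ?_⟩
  rw [integral_const_mul, h2, h1, finrank_euclideanSpace, Fintype.card_fin, smul_eq_mul,
    abs_of_pos (by positivity)]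
  have e2 : (t / Real.pi) ^ (((m + 1 : ℕ) : ℝ) / 2) =
      (√t) ^ (m + 1) / (Real.pi ^ ((m : ℝ) / 2) * √Real.pi) := by
    rw [Real.div_rpow ht.le hpi.le]
    congr 1
    · rw [Real.sqrt_eq_rpow, ← Real.rpow_natCast, ← Real.rpow_mul ht.le]
      congr 1
      ring
    · rw [Real.sqrt_eq_rpow, ← Real.rpow_add hpi]
      congr 1
      push_cast
      ring
  rw [e2, Real.sqrt_mul hpi.le]
  have h3 : 0 < Real.pi ^ ((m : ℝ) / 2) := by positivity
  have h4 : 0 < √Real.pi := Real.sqrt_pos.2 hpi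
  field_simp

/-- First absolute moment of a linear functional. -/
theorem lintegral_lin (hn : 1 ≤ n) {t : ℝ} (ht : 0 < t) (L : E n →L[ℝ] ℝ) :
    ∫⁻ v, ‖L v‖ₑ ∂(gm n t) = ENNReal.ofReal (1 / √(Real.pi * t)) * ‖L‖ₑ := by
  obtain ⟨m, rfl⟩ : ∃ m, n = m + 1 := ⟨n - 1, by omega⟩
  rw [lintegral_gm t (by fun_prop)]
  by_cases hL : L = 0
  · subst hL
    have h0 : ‖(0 : E (m + 1) →L[ℝ] ℝ)‖ₑ = 0 := by
      rw [← ofReal_norm, norm_zero, ENNReal.ofReal_zero]
    rw [h0]
    simp
  set g := (InnerProductSpace.toDual ℝ (E (m + 1))).symm L with hg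
  have hgL : ∀ v, L v = inner ℝ g v := fun v => by
    rw [hg, InnerProductSpace.toDual_symm_apply]
  have hgn : ‖g‖ = ‖L‖ := by rw [hg, LinearIsometryEquiv.norm_map]
  have hL0 : 0 < ‖L‖ := norm_pos_iff.2 hL
  have hg0 : 0 < ‖g‖ := hgn ▸ hL0
  set e : E (m + 1) := ‖g‖⁻¹ • g with he
  have he1 : ‖e‖ = 1 := by
    rw [he, norm_smul, norm_inv, norm_norm, inv_mul_cancel₀ hg0.ne']
  have hLe : ∀ v, |L v| = ‖L‖ * |inner ℝ e v| := fun v => by
    rw [hgL, he, inner_smul_left, abs_mul]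
    simp only [conj_trivial, abs_inv, abs_norm]
    rw [hgn, ← mul_assoc, mul_inv_cancel₀ hL0.ne', one_mul]
  obtain ⟨i1, h1⟩ := int_lin m ht he1
  have e3 : ∀ v : E (m + 1), ENNReal.ofReal (gd t v) * ‖L v‖ₑ =
      ‖L‖ₑ * ENNReal.ofReal (|inner ℝ e v| * gd t v) := by
    intro v
    rw [← ofReal_norm, ← ofReal_norm, Real.norm_eq_abs, hLe,
      ENNReal.ofReal_mul (norm_nonneg _), ENNReal.ofReal_mul (abs_nonneg _)]
    ring
  simp only [e3]
  rw [lintegral_const_mul' _ _ (by simp), ← ofReal_integral_eq_lintegral_ofReal i1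
    (.of_forall fun v => mul_nonneg (abs_nonneg _) (gd_nonneg ht v)), h1, mul_comm]

theorem rotP_hasDeriv (z : E n × E n) (θ : ℝ) :
    HasDerivAt (fun θ : ℝ => (rotP θ z).1) (rotP θ z).2 θ := by
  unfold rotP
  exact ((Real.hasDerivAt_cos θ).smul_const z.1).add ((Real.hasDerivAt_sin θ).smul_const z.2)

theorem mp_point {k : E n → ℝ} (hk : ContDiff ℝ 1 k) (z : E n × E n) :
    ‖k z.1 - k z.2‖ₑ ≤ ∫⁻ θ in Ioc (0 : ℝ) (Real.pi / 2),
      ‖fderiv ℝ k (rotP θ z).1 (rotP θ z).2‖ₑ := by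
  have hc : Continuous fun θ : ℝ => fderiv ℝ k (rotP θ z).1 (rotP θ z).2 := by
    have h1 : Continuous fun θ : ℝ => (rotP θ z).1 := by unfold rotP; fun_prop
    have h2 : Continuous fun θ : ℝ => (rotP θ z).2 := by unfold rotP; fun_prop
    exact ((hk.continuous_fderiv one_ne_zero).comp h1).clm_apply h2
  have h := intervalIntegral.integral_eq_sub_of_hasDerivAt (a := 0) (b := Real.pi / 2)
    (f := fun θ : ℝ => k (rotP θ z).1)
    (f' := fun θ : ℝ => fderiv ℝ k (rotP θ z).1 (rotP θ z).2)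
    (fun θ _ => ((hk.differentiable one_ne_zero) _).hasFDerivAt.comp_hasDerivAt θ
      (rotP_hasDeriv z θ)) (hc.intervalIntegrable _ _)
  have e0 : (rotP 0 z).1 = z.1 := by simp [rotP]
  have e1 : (rotP (Real.pi / 2) z).1 = z.2 := by simp [rotP]
  simp only [e0, e1] at h
  rw [intervalIntegral.integral_of_le (by have := Real.pi_pos; positivity)] at h
  rw [← enorm_neg, neg_sub, ← h]
  exact enorm_integral_le_lintegral_enorm _

/-- The `L¹` Gaussian Poincaré inequality of Maurey and Pisier. -/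
theorem mp_lint (hn : 1 ≤ n) {t : ℝ} (ht : 0 < t) {k : E n → ℝ} (hk : ContDiff ℝ 1 k) :
    ∫⁻ x, ∫⁻ y, ‖k x - k y‖ₑ ∂(gm n t) ∂(gm n t) ≤
      ENNReal.ofReal (1 / 2 * √(Real.pi / t)) * ∫⁻ x, ‖fderiv ℝ k x‖ₑ ∂(gm n t) := by
  have hpi := Real.pi_pos
  have := gm_prob (n := n) ht
  have hkc := hk.continuous
  have hdc := hk.continuous_fderiv one_ne_zero
  have m1 : Measurable fun z : E n × E n => ‖k z.1 - k z.2‖ₑ := by
    have : Continuous fun z : E n × E n => k z.1 - k z.2 :=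
      (hkc.comp continuous_fst).sub (hkc.comp continuous_snd)
    exact this.measurable.enorm
  rw [← lintegral_prod (fun z : E n × E n => ‖k z.1 - k z.2‖ₑ) m1.aemeasurable]
  have mF : Measurable fun z : E n × E n => ‖fderiv ℝ k z.1 z.2‖ₑ := by
    have : Continuous fun z : E n × E n => fderiv ℝ k z.1 z.2 :=
      (hdc.comp continuous_fst).clm_apply continuous_snd
    exact this.measurable.enorm
  have mG : Measurable fun q : (E n × E n) × ℝ =>
      ‖fderiv ℝ k (rotP q.2 q.1).1 (rotP q.2 q.1).2‖ₑ := by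
    have h1 : Continuous fun q : (E n × E n) × ℝ => rotP q.2 q.1 := by unfold rotP; fun_prop
    have : Continuous fun q : (E n × E n) × ℝ => fderiv ℝ k (rotP q.2 q.1).1 (rotP q.2 q.1).2 :=
      (hdc.comp (continuous_fst.comp h1)).clm_apply (continuous_snd.comp h1)
    exact this.measurable.enorm
  calc ∫⁻ z, ‖k z.1 - k z.2‖ₑ ∂((gm n t).prod (gm n t))
      ≤ ∫⁻ z, ∫⁻ θ in Ioc (0 : ℝ) (Real.pi / 2),
        ‖fderiv ℝ k (rotP θ z).1 (rotP θ z).2‖ₑ ∂volume ∂((gm n t).prod (gm n t)) :=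
        lintegral_mono fun z => mp_point hk z
    _ = ∫⁻ θ in Ioc (0 : ℝ) (Real.pi / 2), ∫⁻ z,
        ‖fderiv ℝ k (rotP θ z).1 (rotP θ z).2‖ₑ ∂((gm n t).prod (gm n t)) ∂volume :=
        lintegral_lintegral_swap mG.aemeasurable
    _ = ∫⁻ θ in Ioc (0 : ℝ) (Real.pi / 2), ∫⁻ z,
        ‖fderiv ℝ k z.1 z.2‖ₑ ∂((gm n t).prod (gm n t)) ∂volume := by
        refine setLIntegral_congr_fun measurableSet_Ioc fun θ hθ => ?_
        refine lintegral_rot ht ?_ mF
        have : 0 < Real.cos (θ / 2) :=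
          Real.cos_pos_of_mem_Ioo ⟨by linarith [hθ.1], by linarith [hθ.2]⟩
        exact this.ne'
    _ = ENNReal.ofReal (Real.pi / 2) *
        ∫⁻ z, ‖fderiv ℝ k z.1 z.2‖ₑ ∂((gm n t).prod (gm n t)) := by
        rw [setLIntegral_const, Real.volume_Ioc, sub_zero, mul_comm]
    _ = ENNReal.ofReal (Real.pi / 2) *
        ∫⁻ x, ∫⁻ y, ‖fderiv ℝ k x y‖ₑ ∂(gm n t) ∂(gm n t) := by
        rw [lintegral_prod _ mF.aemeasurable]
    _ = ENNReal.ofReal (Real.pi / 2) *
        ∫⁻ x, ENNReal.ofReal (1 / √(Real.pi * t)) * ‖fderiv ℝ k x‖ₑ ∂(gm n t) := by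
        congr 1
        exact lintegral_congr fun x => lintegral_lin hn ht _
    _ = ENNReal.ofReal (1 / 2 * √(Real.pi / t)) * ∫⁻ x, ‖fderiv ℝ k x‖ₑ ∂(gm n t) := by
        rw [lintegral_const_mul _ hdc.measurable.enorm, ← mul_assoc,
          ← ENNReal.ofReal_mul (by positivity)]
        congr 2
        rw [Real.sqrt_mul hpi.le, Real.sqrt_div hpi.le]
        have h1 : 0 < √Real.pi := Real.sqrt_pos.2 hpi
        have h2 : 0 < √t := Real.sqrt_pos.2 ht
        have h3 : √Real.pi ^ 2 = Real.pi := Real.sq_sqrt hpi.le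
        field_simp
        rw [h3]

end Vale.Agent.P219.TP
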