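import Mathlib

/-! # `sinh r / r` and `cosh r` as smooth functions of `r²` -/

open Filter Topology
open scoped ContDiff Nat

namespace Vale.Agent.P219.SB

/-- `shc (r²) = sinh r / r`. -/
noncomputable def shc : ℝ → ℝ :=
  FormalMultilinearSeries.ofScalarsSum (E := ℝ) fun j : ℕ => (((2 * j + 1)! : ℕ) : ℝ)⁻¹

/-- `chc (r²) = cosh r`. -/
noncomputable def chc : ℝ → ℝ :=
  FormalMultilinearSeries.ofScalarsSum (E := ℝ) fun j : ℕ => (((2 * j)! : ℕ) : ℝ)⁻¹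

/-- A series with infinite radius of convergence is smooth. -/
theorem contDiff_ofScalarsSum {c : ℕ → ℝ} (hc : ∀ n, c n ≠ 0)
    (hc' : Tendsto (fun n => ‖c n.succ‖ / ‖c n‖) atTop (𝓝 0)) :
    ContDiff ℝ ∞ (FormalMultilinearSeries.ofScalarsSum (E := ℝ) c) := by
  have hr := FormalMultilinearSeries.ofScalars_radius_eq_top_of_tendsto ℝ c
    (Eventually.of_forall hc) hc'
  have h1 := (FormalMultilinearSeries.ofScalars ℝ c).hasFPowerSeriesOnBall (by rw [hr]; simp)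
  rw [hr] at h1
  have h2 : AnalyticOnNhd ℝ (FormalMultilinearSeries.ofScalarsSum (E := ℝ) c) Set.univ := by
    have h3 := h1.analyticOnNhd
    intro x _
    exact h3 x (by simp)
  exact contDiffOn_univ.1 (h2.contDiffOn uniqueDiffOn_univ)

theorem contDiff_shc : ContDiff ℝ ∞ shc := by
  refine contDiff_ofScalarsSum (fun n => by positivity) ?_
  have h1 : Tendsto (fun n : ℕ => 1 / ((n : ℝ) + 1)) atTop (𝓝 0) :=
    tendsto_one_div_add_atTop_nhds_zero_nat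
  refine squeeze_zero (fun n => by positivity) (fun n => ?_) h1
  have e : (2 * n.succ + 1)! = (2 * n + 3) * ((2 * n + 2) * (2 * n + 1)!) := by
    have : 2 * n.succ + 1 = (2 * n + 1 + 1) + 1 := by rw [Nat.succ_eq_add_one]; ring
    rw [this, Nat.factorial_succ, Nat.factorial_succ]
  have hp : (0 : ℝ) < ((2 * n + 1)! : ℕ) := by positivity
  rw [norm_inv, norm_inv, Real.norm_natCast, Real.norm_natCast, e, div_le_div_iff₀ (by positivity)
    (by positivity)]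
  push_cast
  rw [mul_inv, mul_inv]
  have h3 : ((2 : ℝ) * n + 3)⁻¹ ≤ 1 := inv_le_one_of_one_le₀ (by linarith [n.cast_nonneg (α := ℝ)])
  have h4 : ((2 : ℝ) * n + 2)⁻¹ * (n + 1) ≤ 1 := by
    rw [inv_mul_le_iff₀ (by positivity)]
    linarith [n.cast_nonneg (α := ℝ)]
  have h5 : (0 : ℝ) < (((2 * n + 1)! : ℕ) : ℝ)⁻¹ := inv_pos.2 hp
  calc ((2 : ℝ) * n + 3)⁻¹ * (((2 : ℝ) * n + 2)⁻¹ * (((2 * n + 1)! : ℕ) : ℝ)⁻¹) * (n + 1)
      = ((2 : ℝ) * n + 3)⁻¹ * (((2 : ℝ) * n + 2)⁻¹ * (n + 1)) * (((2 * n + 1)! : ℕ) : ℝ)⁻¹ := by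
        ring
    _ ≤ 1 * 1 * (((2 * n + 1)! : ℕ) : ℝ)⁻¹ := by gcongr
    _ = 1 * (((2 * n + 1)! : ℕ) : ℝ)⁻¹ := by ring

theorem contDiff_chc : ContDiff ℝ ∞ chc := by
  refine contDiff_ofScalarsSum (fun n => by positivity) ?_
  have h1 : Tendsto (fun n : ℕ => 1 / ((n : ℝ) + 1)) atTop (𝓝 0) :=
    tendsto_one_div_add_atTop_nhds_zero_nat
  refine squeeze_zero (fun n => by positivity) (fun n => ?_) h1
  have e : (2 * n.succ)! = (2 * n + 2) * ((2 * n + 1) * (2 * n)!) := by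
    have : 2 * n.succ = (2 * n + 1) + 1 := by rw [Nat.succ_eq_add_one]; ring
    rw [this, Nat.factorial_succ, Nat.factorial_succ]
  have hp : (0 : ℝ) < ((2 * n)! : ℕ) := by positivity
  rw [norm_inv, norm_inv, Real.norm_natCast, Real.norm_natCast, e, div_le_div_iff₀ (by positivity)
    (by positivity)]
  push_cast
  rw [mul_inv, mul_inv]
  have h3 : ((2 : ℝ) * n + 1)⁻¹ ≤ 1 := inv_le_one_of_one_le₀ (by linarith [n.cast_nonneg (α := ℝ)])
  have h4 : ((2 : ℝ) * n + 2)⁻¹ * (n + 1) ≤ 1 := by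
    rw [inv_mul_le_iff₀ (by positivity)]
    linarith [n.cast_nonneg (α := ℝ)]
  have h5 : (0 : ℝ) < (((2 * n)! : ℕ) : ℝ)⁻¹ := inv_pos.2 hp
  calc ((2 : ℝ) * n + 2)⁻¹ * (((2 : ℝ) * n + 1)⁻¹ * (((2 * n)! : ℕ) : ℝ)⁻¹) * (n + 1)
      = ((2 : ℝ) * n + 1)⁻¹ * (((2 : ℝ) * n + 2)⁻¹ * (n + 1)) * (((2 * n)! : ℕ) : ℝ)⁻¹ := by
        ring
    _ ≤ 1 * 1 * (((2 * n)! : ℕ) : ℝ)⁻¹ := by gcongr
    _ = 1 * (((2 * n)! : ℕ) : ℝ)⁻¹ := by ring

/-- `r shc (r²) = sinh r`. -/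
theorem mul_shc (r : ℝ) : r * shc (r ^ 2) = Real.sinh r := by
  have h1 := Real.sinh_eq_tsum r
  rw [h1, shc, FormalMultilinearSeries.ofScalars_sum_eq, ← tsum_mul_left]
  refine tsum_congr fun n => ?_
  rw [smul_eq_mul]
  ring

theorem shc_sq {r : ℝ} (hr : r ≠ 0) : shc (r ^ 2) = Real.sinh r / r := by
  rw [← mul_shc r]
  field_simp

theorem chc_sq (r : ℝ) : chc (r ^ 2) = Real.cosh r := by
  have h1 := Real.cosh_eq_tsum r
  rw [h1, chc, FormalMultilinearSeries.ofScalars_sum_eq]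
  refine tsum_congr fun n => ?_
  rw [smul_eq_mul]
  ring

theorem shc_zero : shc 0 = 1 := by
  rw [shc, FormalMultilinearSeries.ofScalars_sum_eq, tsum_eq_single 0]
  · simp
  · intro n hn
    simp [hn]

end Vale.Agent.P219.SB
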