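import Vale.Agent.P219.SB.Api
import Vale.Agent.P219.End.BundleLim

/-! # P219 SB: the limit measure (task L1) -/

open MeasureTheory Set Metric Filter
open scoped ENNReal ContDiff Topology

namespace Vale.Agent.P219.SB

open Vale.Agent.P219.TP Vale.Agent.P219.TPH

variable {n : ℕ} {G : Geo n} {k : ℝ} {o : E n} {ρ H : ℝ}

/-- Task L1. PROOF: push forwards to the compact space `{‖lg o x‖ ≤ ρ} × {‖N‖ = 1}`; normalise;
`instance [CompactSpace E] : CompactSpace (ProbabilityMeasure E)` (Mathlib, Prokhorov.lean);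
ultrafilter limit along `hyperfilter ℕ`. If `A = 0` take `V = 0`. -/
theorem exists_isLim (_hn : 1 ≤ n) (_hρ : 0 ≤ ρ) {A : ℝ} {g : ℕ → E n → ℝ}
    (hg : ∀ j, G.Cls o ρ (g j)) (hA : Tendsto (fun j => G.per (g j)) atTop (𝓝 A)) :
    ∃ (U : Ultrafilter ℕ) (V : Measure (E n × E n)), IsLim G o ρ g U V := by
  obtain ⟨C, hC⟩ := hA.bddAbove_range
  obtain ⟨V, h1, h2, h3⟩ := End.exists_limit_ultra G (hyperfilter ℕ) g hg
    (C := C) (fun j => hC (mem_range_self j))
  refine ⟨hyperfilter ℕ, V, Nat.hyperfilter_le_atTop, h1, ?_, fun F hF => h3 F hF.continuousOn⟩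
  have h4 : ∀ᵐ z ∂V, z ∈ End.KS G o ρ := h2
  filter_upwards [h4] with z hz
  exact ⟨hz.1, mem_sphere_zero_iff_norm.1 hz.2⟩

theorem IsLim.mass {g : ℕ → E n → ℝ} {U : Ultrafilter ℕ} {V : Measure (E n × E n)} {A : ℝ}
    (hV : IsLim G o ρ g U V) (hA : Tendsto (fun j => G.per (g j)) atTop (𝓝 A)) :
    V.real univ = A := by
  have h1 := hV.tendsto (fun _ => 1) continuous_const
  simp only [one_mul, integral_const, smul_eq_mul, mul_one] at h1
  exact tendsto_nhds_unique h1 (hA.mono_left hV.le)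

end Vale.Agent.P219.SB
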